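import Mathlib.LinearAlgebra.FiniteDimensional.Lemmas
import Mathlib.LinearAlgebra.Dimension.Finrank
import Mathlib.Algebra.CharZero.Defs
import Mathlib.Tactic.LinearCombination
import Mathlib.Tactic.Module
import Mathlib.Tactic.Linarith

/-! Clifford trick, linear algebra: a degree two operator `e` on a graded space with top degree
`N`, odd operators `L w` of degree `-1` with `[L w, e] = x w`, `[x w, e] = 0` and
`L w x w' + x w' L w = ω w w'` force `e ^ j` onto degree `m` as soon as `j + N - s ≤ m`,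
where `s` is the dimension of an isotropic subspace on which `ω` has no kernel. -/

namespace P275CL

variable {k V W : Type*} [Field k] [AddCommGroup V] [Module k V]

/-- `e ^ j` maps degree `m - 2 j` onto degree `m` whenever `j + c ≤ m`. -/
def Onto (G : ℤ → Submodule k V) (e : Module.End k V) (c : ℤ) : Prop :=
  ∀ (j : ℕ) (m : ℤ), (j : ℤ) + c ≤ m → ∀ v ∈ G m, ∃ u ∈ G (m - 2 * j), (e ^ j) u = v

/-- The Clifford data, all identities being required on homogeneous elements only and for the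
indices in the set `S`. -/
structure Cl (G : ℤ → Submodule k V) (e : Module.End k V) (L x : W → Module.End k V)
    (ω : W → W → k) (S : Set W) : Prop where
  he : ∀ m, ∀ v ∈ G m, e v ∈ G (m + 2)
  hL : ∀ w ∈ S, ∀ m, ∀ v ∈ G m, L w v ∈ G (m - 1)
  hx : ∀ w ∈ S, ∀ m, ∀ v ∈ G m, x w v ∈ G (m + 1)
  Le : ∀ w ∈ S, ∀ m, ∀ v ∈ G m, L w (e v) = e (L w v) + x w v
  xe : ∀ w ∈ S, ∀ m, ∀ v ∈ G m, x w (e v) = e (x w v)
  Lx : ∀ w ∈ S, ∀ w' ∈ S, ∀ m, ∀ v ∈ G m, L w (x w' v) + x w' (L w v) = ω w w' • v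

theorem Onto.mono {G : ℤ → Submodule k V} {e : Module.End k V} {c c' : ℤ} (h : Onto G e c)
    (hc : c ≤ c') : Onto G e c' := fun j m hj v hv => h j m (by omega) v hv

theorem onto_top {G : ℤ → Submodule k V} (e : Module.End k V) {N : ℤ}
    (top : ∀ m, N < m → ∀ v ∈ G m, v = 0) : Onto G e N := by
  intro j m hj v hv
  rcases Nat.eq_zero_or_pos j with rfl | h
  · exact ⟨v, by simpa using hv, by simp⟩
  · exact ⟨0, zero_mem _, by rw [top m (by omega) v hv, map_zero]⟩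

theorem Cl.xx {G : ℤ → Submodule k V} {e : Module.End k V} {L x : W → Module.End k V}
    {ω : W → W → k} {S : Set W} (h : Cl G e L x ω S) {w w' : W} (hw : w ∈ S) (hw' : w' ∈ S)
    (m : ℤ) (v : V) (hv : v ∈ G m) : x w (x w' v) + x w' (x w v) = 0 := by
  have h1 := h.Lx w hw w' hw' _ _ (h.he m v hv)
  have h2 := h.Lx w hw w' hw' m v hv
  rw [h.xe w' hw' m v hv, h.Le w hw _ _ (h.hx w' hw' m v hv), h.Le w hw m v hv, map_add,
    h.xe w' hw' _ _ (h.hL w hw m v hv)] at h1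
  have h3 := congrArg e h2
  rw [map_add, map_smul] at h3
  linear_combination (norm := module) h1 - h3

theorem pow_mem {G : ℤ → Submodule k V} {e : Module.End k V}
    (he : ∀ m, ∀ v ∈ G m, e v ∈ G (m + 2)) (j : ℕ) (m : ℤ) (v : V) (hv : v ∈ G m) :
    (e ^ j) v ∈ G (m + 2 * j) := by
  induction j with
  | zero => simpa using hv
  | succ j ih =>
    have := he _ _ ih
    rw [pow_succ', Module.End.mul_apply]
    have h : m + 2 * ((j + 1 : ℕ) : ℤ) = m + 2 * j + 2 := by push_cast; ring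
    rwa [h]

theorem pow_comm {G : ℤ → Submodule k V} {e y : Module.End k V}
    (he : ∀ m, ∀ v ∈ G m, e v ∈ G (m + 2)) (hy : ∀ m, ∀ v ∈ G m, y (e v) = e (y v))
    (j : ℕ) (m : ℤ) (v : V) (hv : v ∈ G m) : y ((e ^ j) v) = (e ^ j) (y v) := by
  induction j with
  | zero => simp
  | succ j ih =>
    rw [pow_succ', Module.End.mul_apply, Module.End.mul_apply, hy _ _ (pow_mem he j m v hv), ih]

/-- The tensor step: `G = B + a B + b B + a b B`, `e = f - a b`. -/
theorem step [CharZero k] {G B : ℤ → Submodule k V} {e f a b : Module.End k V} {c : ℤ}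
    (hBG : ∀ m, ∀ v ∈ B m, v ∈ G m)
    (hf : ∀ m, ∀ v ∈ B m, f v ∈ B (m + 2)) (hfG : ∀ m, ∀ v ∈ G m, f v ∈ G (m + 2))
    (ha : ∀ m, ∀ v ∈ G m, a v ∈ G (m + 1)) (hb : ∀ m, ∀ v ∈ G m, b v ∈ G (m + 1))
    (af : ∀ m, ∀ v ∈ G m, a (f v) = f (a v)) (bf : ∀ m, ∀ v ∈ G m, b (f v) = f (b v))
    (aa : ∀ m, ∀ v ∈ G m, a (a v) = 0) (bb : ∀ m, ∀ v ∈ G m, b (b v) = 0)
    (ab : ∀ m, ∀ v ∈ G m, a (b v) + b (a v) = 0)
    (hef : ∀ m, ∀ v ∈ G m, e v = f v - a (b v))
    (dec : ∀ m, ∀ v ∈ G m, ∃ u ∈ B m, ∃ u1 ∈ B (m - 1), ∃ u2 ∈ B (m - 1), ∃ u3 ∈ B (m - 2),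
      v = u + a u1 + b u2 + a (b u3))
    (h : Onto B f c) : Onto G e (c + 1) := by
  have hab : ∀ m, ∀ v ∈ G m, a (b v) ∈ G (m + 2) := fun m v hv => by
    have := ha _ _ (hb m v hv)
    rwa [add_assoc] at this
  have aba : ∀ m, ∀ v ∈ G m, a (b (a v)) = 0 := fun m v hv => by
    have h1 := ab _ _ (ha m v hv)
    rw [aa m v hv, map_zero, add_zero] at h1
    exact h1
  have abb : ∀ m, ∀ v ∈ G m, a (b (b v)) = 0 := fun m v hv => by rw [bb m v hv, map_zero]
  have abf : ∀ m, ∀ v ∈ G m, (a * b) (f v) = f ((a * b) v) := fun m v hv => by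
    simp only [Module.End.mul_apply]
    rw [bf m v hv, af _ _ (hb m v hv)]
  -- `e ^ j = f ^ j` on elements killed by `a b`
  have p0 : ∀ (j : ℕ) (m : ℤ), ∀ v ∈ G m, a (b v) = 0 → (e ^ j) v = (f ^ j) v := by
    intro j m v hv h0
    induction j with
    | zero => simp
    | succ j ih =>
      have h1 := pow_comm hfG abf j m v hv
      simp only [Module.End.mul_apply] at h1
      rw [pow_succ', pow_succ', Module.End.mul_apply, Module.End.mul_apply, ih,
        hef _ _ (pow_mem hfG j m v hv), h1, h0, map_zero, sub_zero]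
  have p1 : ∀ (j : ℕ) (m : ℤ), ∀ v ∈ G m,
      (e ^ (j + 1)) v = (f ^ (j + 1)) v - ((j : k) + 1) • (f ^ j) (a (b v)) := by
    intro j m v hv
    induction j with
    | zero => simpa using hef m v hv
    | succ j ih =>
      have h1 := pow_comm hfG abf (j + 1) m v hv
      have h2 := pow_comm hfG abf j _ _ (hab m v hv)
      simp only [Module.End.mul_apply] at h1 h2
      rw [aba _ _ (hb m v hv), map_zero] at h2
      rw [pow_succ' e (j + 1), Module.End.mul_apply, ih, map_sub, map_smul,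
        hef _ _ (pow_mem hfG (j + 1) m v hv), hef _ _ (pow_mem hfG j _ _ (hab m v hv)), h1, h2,
        pow_succ' f (j + 1), Module.End.mul_apply, pow_succ' f j, Module.End.mul_apply,
        Module.End.mul_apply]
      push_cast
      module
  intro j m hj v hv
  rcases j with _ | j
  · exact ⟨v, by simpa using hv, by simp⟩
  obtain ⟨u, hu, u1, hu1, u2, hu2, u3, hu3, rfl⟩ := dec m v hv
  push_cast at hj ⊢
  obtain ⟨z1, hz1, rfl⟩ := h (j + 1) (m - 1) (by push_cast; omega) u1 hu1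
  obtain ⟨z2, hz2, rfl⟩ := h (j + 1) (m - 1) (by push_cast; omega) u2 hu2
  obtain ⟨z, hz, rfl⟩ := h (j + 2) m (by push_cast; omega) u hu
  obtain ⟨w, hw, rfl⟩ := h j (m - 2) (by omega) u3 hu3
  have hw' : (f ^ (j + 1)) w ∈ B m := by
    have := pow_mem hf (j + 1) _ _ hw
    have e1 : m - 2 - 2 * (j : ℤ) + 2 * ((j + 1 : ℕ) : ℤ) = m := by push_cast; ring
    rwa [e1] at this
  obtain ⟨z', hz', hzz⟩ := h (j + 2) m (by push_cast; omega) _ hw'
  push_cast at hz1 hz2 hz hz'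
  have hj0 : (j : k) + 1 ≠ 0 := by exact_mod_cast Nat.succ_ne_zero j
  set p : ℤ := m - 2 * ((j : ℤ) + 2) with hp
  have e1 : m - 1 - 2 * ((j : ℤ) + 1) = p + 1 := by omega
  have e2 : m - 2 - 2 * (j : ℤ) = p + 2 := by omega
  have e3 : m - 2 * ((j : ℤ) + 1) = p + 2 := by omega
  have e4 : p + 1 + 1 = p + 2 := by omega
  rw [e1] at hz1 hz2
  rw [e2] at hw
  rw [e3]
  replace hz1 := hBG _ _ hz1
  replace hz2 := hBG _ _ hz2
  replace hz := hBG _ _ hz
  replace hz' := hBG _ _ hz'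
  replace hw := hBG _ _ hw
  have m1 : f z + ((j : k) + 1)⁻¹ • (f z' - w) ∈ G (p + 2) :=
    add_mem (hfG _ _ hz) (Submodule.smul_mem _ _ (sub_mem (hfG _ _ hz') hw))
  have m2 : ((j : k) + 1) • z + z' ∈ G p := add_mem (Submodule.smul_mem _ _ hz) hz'
  refine ⟨f z + ((j : k) + 1)⁻¹ • (f z' - w) + a z1 + b z2 + a (b (((j : k) + 1) • z + z')),
    add_mem (add_mem (add_mem m1 (e4 ▸ ha _ _ hz1)) (e4 ▸ hb _ _ hz2)) (hab _ _ m2), ?_⟩
  rw [map_add, map_add, map_add, p1 j _ _ m1, p0 _ _ _ (ha _ _ hz1) (aba _ _ hz1),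
    p0 _ _ _ (hb _ _ hz2) (abb _ _ hz2), p0 _ _ _ (hab _ _ m2) (aba _ _ (hb _ _ m2)),
    pow_comm hfG af _ _ _ hz1, pow_comm hfG bf _ _ _ hz2]
  have q1 := pow_comm hfG abf j _ _ hw
  have q2 := abf _ _ hz
  have q3 := abf _ _ hz'
  simp only [Module.End.mul_apply] at q1 q2 q3
  rw [q1]
  have r1 : ∀ t : V, (f ^ (j + 2)) t = (f ^ (j + 1)) (f t) := fun t => by
    rw [pow_succ f (j + 1), Module.End.mul_apply]
  have r2 : ∀ t : V, (f ^ (j + 1)) t = (f ^ j) (f t) := fun t => by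
    rw [pow_succ f j, Module.End.mul_apply]
  rw [r1] at hzz
  simp only [map_add, map_sub, map_smul, q2, q3, r1, hzz, sub_self, smul_zero, add_zero,
    smul_add, smul_smul, mul_inv_cancel₀ hj0, one_smul]
  rw [r2 (a (b z)), r2 (a (b z'))]
  module

/-- One Clifford pair splits off an exterior generator. -/
theorem split {G : ℤ → Submodule k V} {l y : Module.End k V}
    (hl : ∀ m, ∀ v ∈ G m, l v ∈ G (m - 1)) (hy : ∀ m, ∀ v ∈ G m, y v ∈ G (m + 1))
    (yy : ∀ m, ∀ v ∈ G m, y (y v) = 0) (ly : ∀ m, ∀ v ∈ G m, l (y v) + y (l v) = v)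
    (m : ℤ) (v : V) (hv : v ∈ G m) :
    l (y v) ∈ G m ∧ l (y (l (y v))) = l (y v) ∧ y (l (y v)) = y v := by
  have h1 : l (y v) ∈ G m := by simpa using hl _ _ (hy m v hv)
  have h2 := ly _ _ (hy m v hv)
  rw [yy m v hv, map_zero, zero_add] at h2
  exact ⟨h1, by rw [h2], h2⟩

/-- The fixed space of `l y`. -/
def fix (G : ℤ → Submodule k V) (l y : Module.End k V) (m : ℤ) : Submodule k V :=
  G m ⊓ LinearMap.ker (l * y - 1)

theorem mem_fix {G : ℤ → Submodule k V} {l y : Module.End k V} {m : ℤ} {v : V} :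
    v ∈ fix G l y m ↔ v ∈ G m ∧ l (y v) = v := by
  simp [fix, sub_eq_zero]

/-- A Clifford pair `(l, y)` commuting with `f` and anticommuting with the `x w`. -/
structure Pr (G : ℤ → Submodule k V) (f : Module.End k V) (x : W → Module.End k V) (S : Set W)
    (l y : Module.End k V) : Prop where
  hl : ∀ m, ∀ v ∈ G m, l v ∈ G (m - 1)
  hy : ∀ m, ∀ v ∈ G m, y v ∈ G (m + 1)
  yy : ∀ m, ∀ v ∈ G m, y (y v) = 0
  ly : ∀ m, ∀ v ∈ G m, l (y v) + y (l v) = v
  lf : ∀ m, ∀ v ∈ G m, l (f v) = f (l v)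
  yf : ∀ m, ∀ v ∈ G m, y (f v) = f (y v)
  lx : ∀ w ∈ S, ∀ m, ∀ v ∈ G m, l (x w v) = -x w (l v)
  yx : ∀ w ∈ S, ∀ m, ∀ v ∈ G m, y (x w v) = -x w (y v)

section red

variable {G : ℤ → Submodule k V} {f : Module.End k V} {L x : W → Module.End k V}
  {ω : W → W → k} {S : Set W} {l y l2 y2 : Module.End k V}

theorem Pr.q_mem (p : Pr G f x S l y) (m : ℤ) (v : V) (hv : v ∈ G m) : l (y v) ∈ fix G l y m :=
  mem_fix.2 ⟨(split p.hl p.hy p.yy p.ly m v hv).1, (split p.hl p.hy p.yy p.ly m v hv).2.1⟩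

theorem Pr.dec (p : Pr G f x S l y) (m : ℤ) (v : V) (hv : v ∈ G m) :
    ∃ u ∈ fix G l y m, ∃ u1 ∈ fix G l y (m - 1), v = u + y u1 :=
  ⟨_, p.q_mem m v hv, _, p.q_mem _ _ (p.hl m v hv), by
    rw [(split p.hl p.hy p.yy p.ly _ _ (p.hl m v hv)).2.2, p.ly m v hv]⟩

theorem Pr.top (p : Pr G f x S l y) {N : ℤ} (top : ∀ m, N < m → ∀ v ∈ G m, v = 0) (m : ℤ)
    (hm : N - 1 < m) (v : V) (hv : v ∈ fix G l y m) : v = 0 := by
  obtain ⟨h1, h2⟩ := mem_fix.1 hv
  rw [← h2, top (m + 1) (by omega) _ (p.hy m v h1), map_zero]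

theorem Pr.qf (p : Pr G f x S l y) (m : ℤ) (v : V) (hv : v ∈ G m) :
    l (y (f v)) = f (l (y v)) := by rw [p.yf m v hv, p.lf _ _ (p.hy m v hv)]

theorem Pr.qx (p : Pr G f x S l y) {w : W} (hw : w ∈ S) (m : ℤ) (v : V) (hv : v ∈ G m) :
    l (y (x w v)) = x w (l (y v)) := by
  rw [p.yx w hw m v hv, map_neg, p.lx w hw _ _ (p.hy m v hv), neg_neg]

theorem Cl.red (h : Cl G f L x ω S) (p : Pr G f x S l y) :
    Cl (fix G l y) f (fun w => l * y * L w) x ω S := by
  have hx : ∀ w ∈ S, ∀ m, ∀ v ∈ fix G l y m, x w v ∈ fix G l y (m + 1) := by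
    intro w hw m v hv
    obtain ⟨h1, h2⟩ := mem_fix.1 hv
    exact mem_fix.2 ⟨h.hx w hw m v h1, by rw [p.qx hw m v h1, h2]⟩
  refine ⟨fun m v hv => ?_, fun w hw m v hv => ?_, hx, fun w hw m v hv => ?_,
    fun w hw m v hv => h.xe w hw m v (mem_fix.1 hv).1, fun w hw w' hw' m v hv => ?_⟩
  · obtain ⟨h1, h2⟩ := mem_fix.1 hv
    exact mem_fix.2 ⟨h.he m v h1, by rw [p.qf m v h1, h2]⟩
  · exact p.q_mem _ _ (h.hL w hw m v (mem_fix.1 hv).1)
  · obtain ⟨h1, h2⟩ := mem_fix.1 hv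
    simp only [Module.End.mul_apply]
    rw [h.Le w hw m v h1, map_add, map_add, p.qf _ _ (h.hL w hw m v h1), p.qx hw m v h1, h2]
  · obtain ⟨h1, h2⟩ := mem_fix.1 hv
    simp only [Module.End.mul_apply]
    rw [← p.qx hw' _ _ (h.hL w hw m v h1), ← map_add, ← map_add, h.Lx w hw w' hw' m v h1,
      map_smul, map_smul, h2]

theorem Pr.red (p : Pr G f x S l y) (p2 : Pr G f x S l2 y2)
    (h1 : ∀ m, ∀ v ∈ G m, l (y2 v) = -y2 (l v)) (h2 : ∀ m, ∀ v ∈ G m, y (y2 v) = -y2 (y v)) :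
    Pr (fix G l y) f x S (l * y * l2) y2 := by
  have q2 : ∀ m, ∀ v ∈ G m, l (y (y2 v)) = y2 (l (y v)) := fun m v hv => by
    rw [h2 m v hv, map_neg, h1 _ _ (p.hy m v hv), neg_neg]
  refine ⟨fun m v hv => p.q_mem _ _ (p2.hl m v (mem_fix.1 hv).1), fun m v hv => ?_,
    fun m v hv => p2.yy m v (mem_fix.1 hv).1, fun m v hv => ?_, fun m v hv => ?_,
    fun m v hv => p2.yf m v (mem_fix.1 hv).1, fun w hw m v hv => ?_,
    fun w hw m v hv => p2.yx w hw m v (mem_fix.1 hv).1⟩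
  · obtain ⟨g1, g2⟩ := mem_fix.1 hv
    exact mem_fix.2 ⟨p2.hy m v g1, by rw [q2 m v g1, g2]⟩
  · obtain ⟨g1, g2⟩ := mem_fix.1 hv
    simp only [Module.End.mul_apply]
    rw [← q2 _ _ (p2.hl m v g1), ← map_add, ← map_add, p2.ly m v g1, g2]
  · obtain ⟨g1, -⟩ := mem_fix.1 hv
    simp only [Module.End.mul_apply]
    rw [p2.lf m v g1, p.qf _ _ (p2.hl m v g1)]
  · obtain ⟨g1, -⟩ := mem_fix.1 hv
    simp only [Module.End.mul_apply]
    rw [p2.lx w hw m v g1, map_neg, map_neg, p.qx hw _ _ (p2.hl m v g1)]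

end red

/-- MAIN LEMMA. `A` is an isotropic subspace of dimension at least `s` meeting the kernel of the
skew form `ω` on `S` trivially, `N` bounds the degrees. -/
theorem cliff [CharZero k] [AddCommGroup W] [Module k W] (ω : W →ₗ[k] W →ₗ[k] k)
    (hs : ∀ w w', ω w w' = -ω w' w) (x : W → Module.End k V) (s : ℕ) :
    ∀ (G : ℤ → Submodule k V) (e : Module.End k V) (L : W → Module.End k V)
      (S A : Submodule k W) (N : ℤ), Cl G e L x (fun w w' => ω w w') S → A ≤ S →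
      s ≤ Module.finrank k A → (∀ v ∈ A, ∀ v' ∈ A, ω v v' = 0) →
      (∀ v ∈ A, v ≠ 0 → ∃ w ∈ S, ω v w ≠ 0) → (∀ m, N < m → ∀ v ∈ G m, v = 0) →
      Onto G e (N - s) := by
  induction s with
  | zero => intro G e L S A N _ _ _ _ _ top; simpa using onto_top e top
  | succ s ih =>
    intro G e L S A N h hAS hd hiso hnd top
    have hfin : Module.Finite k A := Module.finite_of_finrank_pos (by omega)
    have hA : A ≠ ⊥ := by
      rintro rfl
      simp at hd
    obtain ⟨a, haA, ha0⟩ := Submodule.exists_mem_ne_zero_of_ne_bot hA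
    obtain ⟨b0, hb0, hab0⟩ := hnd a haA ha0
    have ha : a ∈ S := hAS haA
    obtain ⟨b, hb, hab⟩ : ∃ b ∈ S, ω a b = 1 :=
      ⟨(ω a b0)⁻¹ • b0, S.smul_mem _ hb0, by simp [hab0]⟩
    have hba : ω b a = -1 := by rw [hs, hab]
    have h2 : (2 : k) ≠ 0 := two_ne_zero
    have h00 : ∀ w, ω w w = 0 := fun w => by
      have := hs w w
      have h3 : 2 * ω w w = 0 := by linear_combination this
      exact (mul_eq_zero.1 h3).resolve_left h2
    have xx : ∀ w ∈ S, ∀ w' ∈ S, ∀ m, ∀ v ∈ G m, x w (x w' v) = -x w' (x w v) :=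
      fun w hw w' hw' m v hv => eq_neg_of_add_eq_zero_left (h.xx hw hw' m v hv)
    have x0 : ∀ w ∈ S, ∀ m, ∀ v ∈ G m, x w (x w v) = 0 := fun w hw m v hv => by
      have h3 : (2 : k) • x w (x w v) = 0 := by rw [two_smul]; exact h.xx hw hw m v hv
      exact (smul_eq_zero.1 h3).resolve_left h2
    have Lx : ∀ w ∈ S, ∀ w' ∈ S, ∀ m, ∀ v ∈ G m,
        L w (x w' v) = ω w w' • v - x w' (L w v) :=
      fun w hw w' hw' m v hv => eq_sub_of_add_eq (h.Lx w hw w' hw' m v hv)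
    set f : Module.End k V := e + x a * x b with hf
    have fv : ∀ v, f v = e v + x a (x b v) := fun v => rfl
    have hfG : ∀ m, ∀ v ∈ G m, f v ∈ G (m + 2) := fun m v hv => by
      have := h.hx a ha _ _ (h.hx b hb m v hv)
      rw [add_assoc] at this
      exact add_mem (h.he m v hv) this
    have xf : ∀ w ∈ S, ∀ m, ∀ v ∈ G m, x w (f v) = f (x w v) := fun w hw m v hv => by
      rw [fv, fv, map_add, h.xe w hw m v hv, xx w hw a ha _ _ (h.hx b hb m v hv),
        xx w hw b hb m v hv, map_neg, neg_neg]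
    have Lf : ∀ w ∈ S, ∀ m, ∀ v ∈ G m,
        L w (f v) = f (L w v) + x w v + ω w a • x b v - ω w b • x a v := fun w hw m v hv => by
      rw [fv, fv, map_add, h.Le w hw m v hv, Lx w hw a ha _ _ (h.hx b hb m v hv),
        Lx w hw b hb m v hv, map_sub, map_smul]
      abel
    set S' : Submodule k W := S ⊓ LinearMap.ker (ω a) ⊓ LinearMap.ker (ω b) with hS'
    have mS : ∀ w, w ∈ S' ↔ w ∈ S ∧ ω a w = 0 ∧ ω b w = 0 := fun w => by
      simp [hS', and_assoc]
    have c0 : Cl G f L x (fun w w' => ω w w') S' := by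
      refine ⟨hfG, fun w hw => h.hL w ((mS w).1 hw).1, fun w hw => h.hx w ((mS w).1 hw).1,
        fun w hw m v hv => ?_, fun w hw => xf w ((mS w).1 hw).1,
        fun w hw w' hw' => h.Lx w ((mS w).1 hw).1 w' ((mS w').1 hw').1⟩
      obtain ⟨g1, g2, g3⟩ := (mS w).1 hw
      rw [Lf w g1 m v hv, hs w a, hs w b, g2, g3]
      simp
    have p1 : Pr G f x S' (L a) (x b) := by
      refine ⟨h.hL a ha, h.hx b hb, x0 b hb, fun m v hv => ?_, fun m v hv => ?_, xf b hb,
        fun w hw m v hv => ?_, fun w hw => xx b hb w ((mS w).1 hw).1⟩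
      · rw [h.Lx a ha b hb m v hv, hab, one_smul]
      · rw [Lf a ha m v hv, h00, hab]; simp
      · rw [Lx a ha w ((mS w).1 hw).1 m v hv, ((mS w).1 hw).2.1]; simp
    have p2 : Pr G f x S' (-L b) (x a) := by
      refine ⟨fun m v hv => neg_mem (h.hL b hb m v hv), h.hx a ha, x0 a ha, fun m v hv => ?_,
        fun m v hv => ?_, xf a ha, fun w hw m v hv => ?_,
        fun w hw => xx a ha w ((mS w).1 hw).1⟩
      · simp only [LinearMap.neg_apply, map_neg]
        rw [Lx b hb a ha m v hv, hba]; simp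
      · simp only [LinearMap.neg_apply, map_neg]
        rw [Lf b hb m v hv, h00, hba]; simp
      · simp only [LinearMap.neg_apply, map_neg]
        rw [Lx b hb w ((mS w).1 hw).1 m v hv, ((mS w).1 hw).2.2]; simp
    have p3 := p1.red p2 (fun m v hv => by rw [Lx a ha a ha m v hv, h00]; simp) (xx b hb a ha)
    have c2 := (c0.red p1).red p3
    have hd' : s ≤ Module.finrank k (A ⊓ LinearMap.ker (ω b) : Submodule k W) := by
      have e1 := LinearMap.finrank_range_add_finrank_ker ((ω b).domRestrict A)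
      have e2 : Module.finrank k (LinearMap.range ((ω b).domRestrict A)) ≤ 1 := by
        simpa using Submodule.finrank_le (LinearMap.range ((ω b).domRestrict A))
      have e3 := Submodule.finrank_map_subtype_eq A (LinearMap.ker ((ω b).domRestrict A))
      rw [LinearMap.ker_domRestrict, Submodule.map_comap_subtype] at e3
      rw [LinearMap.ker_domRestrict] at e1
      omega
    have key := ih _ f _ S' (A ⊓ LinearMap.ker (ω b)) (N - 1 - 1) c2
      (fun w hw => (mS w).2 ⟨hAS hw.1, hiso a haA w hw.1, hw.2⟩) hd'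
      (fun v hv v' hv' => hiso v hv.1 v' hv'.1) (fun v hv hv0 => by
        obtain ⟨w, hw, hne⟩ := hnd v hv.1 hv0
        have g1 : ω v b = 0 := by rw [hs, LinearMap.mem_ker.1 hv.2, neg_zero]
        refine ⟨w + ω b w • a - ω a w • b, (mS _).2 ⟨sub_mem (add_mem hw (S.smul_mem _ ha))
          (S.smul_mem _ hb), by simp [h00, hab], by simp [h00, hba]⟩, ?_⟩
        simpa [g1, hiso v hv.1 a haA] using hne)
      (p3.top (p1.top top))
    have hBG : ∀ m, ∀ v ∈ fix (fix G (L a) (x b)) (L a * x b * -L b) (x a) m, v ∈ G m :=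
      fun m v hv => (mem_fix.1 (mem_fix.1 hv).1).1
    have fin := step (e := e) (f := f) (a := x b) (b := -x a) hBG c2.he hfG (h.hx b hb)
      (fun m v hv => neg_mem (h.hx a ha m v hv)) (xf b hb)
      (fun m v hv => by simp only [LinearMap.neg_apply, map_neg]; rw [xf a ha m v hv])
      (x0 b hb) (fun m v hv => by simpa using x0 a ha m v hv)
      (fun m v hv => by
        simp only [LinearMap.neg_apply, map_neg]
        rw [xx b hb a ha m v hv]; simp)
      (fun m v hv => by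
        simp only [LinearMap.neg_apply, map_neg]
        rw [fv, xx b hb a ha m v hv]; simp)
      (fun m v hv => by
        obtain ⟨u, hu, u', hu', rfl⟩ := p1.dec m v hv
        obtain ⟨u0, hu0, u2, hu2, rfl⟩ := p3.dec _ _ hu
        obtain ⟨u1, hu1, u3, hu3, rfl⟩ := p3.dec _ _ hu'
        refine ⟨u0, hu0, u1, hu1, -u2, neg_mem hu2, -u3, neg_mem (by rwa [sub_sub] at hu3), ?_⟩
        simp only [LinearMap.neg_apply, map_neg, neg_neg, map_add]
        abel) key
    exact fin.mono (by push_cast; omega)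

end P275CL
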